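import Vale.Agent.P290Z.Spec2

/-! Inversion of near identity maps with parameters; boxes. -/

open Set Filter Metric Asymptotics Function
open scoped Topology

namespace Vale.Agent.P290Z.Pr3

open Vale.Agent.P290 Vale.Agent.P290.H805

variable {V : Type} [NormedAddCommGroup V] [NormedSpace ℂ V]

theorem implicit {c : V → C2} {G : V × C2 → C2} {y₀ : V} (hG : DifferentiableAt ℂ G (y₀, c y₀))
    (h1 : ∀ᶠ y in 𝓝 y₀, c y = G (y, c y))
    (h2 : ∀ᶠ y in 𝓝 y₀, ‖G (y, c y) - G (y, c y₀)‖ ≤ 1 / 4 * ‖c y - c y₀‖)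
    (h3 : ‖fderiv ℂ (fun t => G (y₀, t)) (c y₀)‖ ≤ 1 / 4) : DifferentiableAt ℂ c y₀ := by
  set D := fderiv ℂ G (y₀, c y₀) with hD
  have e2 : fderiv ℂ (fun t => G (y₀, t)) (c y₀) = D ∘L ContinuousLinearMap.inr ℂ V C2 :=
    (hG.hasFDerivAt.comp (c y₀) (hasFDerivAt_prodMk_right y₀ (c y₀))).fderiv
  rw [e2] at h3
  have a1 : (fun y => G (y, c y₀) - G (y₀, c y₀)) =O[𝓝 y₀] fun y => y - y₀ :=
    (hG.comp y₀ (hasFDerivAt_prodMk_left (𝕜 := ℂ) y₀ (c y₀)).differentiableAt).isBigO_sub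
  have a2 : (fun y => c y - c y₀) =O[𝓝 y₀] fun y => y - y₀ := by
    refine IsBigO.trans (IsBigO.of_bound (4 / 3) ?_) a1
    filter_upwards [h1, h2] with y hy hy'
    have h4 : c y - c y₀ = G (y, c y) - G (y, c y₀) + (G (y, c y₀) - G (y₀, c y₀)) := by
      rw [← hy, ← h1.self_of_nhds]
      abel
    have h5 := norm_add_le (G (y, c y) - G (y, c y₀)) (G (y, c y₀) - G (y₀, c y₀))
    rw [← h4] at h5
    linarith
  have a3 : Tendsto (fun y => (y, c y)) (𝓝 y₀) (𝓝 (y₀, c y₀)) :=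
    tendsto_id.prodMk_nhds (tendsto_sub_nhds_zero_iff.1
      (a2.trans_tendsto (tendsto_sub_nhds_zero_iff.2 tendsto_id)))
  have a4 := (hG.hasFDerivAt.isLittleO.comp_tendsto a3).trans_isBigO
    ((isBigO_refl (fun y => y - y₀) (𝓝 y₀)).prod_left a2)
  let u := Units.oneSub (D ∘L ContinuousLinearMap.inr ℂ V C2) (by linarith)
  let M : C2 →L[ℂ] C2 := u.inv
  have hM : ∀ w, M (w - D (0, w)) = w := fun w => congrArg (fun L : C2 →L[ℂ] C2 => L w) u.inv_val
  refine (HasFDerivAt.of_isLittleO (f' := M ∘L D ∘L ContinuousLinearMap.inl ℂ V C2)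
    (((M.isBigO_comp _ _).trans_isLittleO a4).congr' ?_ EventuallyEq.rfl)).differentiableAt
  filter_upwards [h1] with y hy
  have h4 : D ((y, c y) - (y₀, c y₀)) = D (y - y₀, 0) + D (0, c y - c y₀) := by
    rw [← map_add]
    simp
  simp only [Function.comp, ← hD]
  rw [← hy, ← h1.self_of_nhds, h4, sub_add_eq_sub_sub_swap, map_sub, hM]
  rfl

theorem slice {O : Set V} {g : V × C2 → C2} {r : ℝ}
    (hg : DifferentiableOn ℂ g (O ×ˢ ball (0 : C2) r)) {x : V} (hx : x ∈ O) :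
    DifferentiableOn ℂ (fun t => g (x, t)) (ball (0 : C2) r) :=
  hg.comp (f := fun t => (x, t)) (by fun_prop) fun _ ht => ⟨hx, ht⟩

theorem solve {O : Set V} (hO : IsOpen O) {g b : V × C2 → C2} {r η : ℝ} (hη : 0 < η)
    (hr : 16 * η ≤ r) (hg : DifferentiableOn ℂ g (O ×ˢ ball (0 : C2) r))
    (hg' : ∀ y ∈ O ×ˢ ball (0 : C2) r, ‖g y‖ ≤ η)
    (hb : DifferentiableOn ℂ b (O ×ˢ ball (0 : C2) (r / 4)))
    (hb' : ∀ y ∈ O ×ˢ ball (0 : C2) (r / 4), ‖b y‖ ≤ η) :
    ∃ c : V × C2 → C2, DifferentiableOn ℂ c (O ×ˢ ball (0 : C2) (r / 4)) ∧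
      ∀ y ∈ O ×ˢ ball (0 : C2) (r / 4), ‖c y‖ ≤ 2 * η ∧ c y + g (y.1, y.2 + c y) = b y := by
  have hex : ∀ y ∈ O ×ˢ ball (0 : C2) (r / 4), ∃ c : C2, ‖c‖ ≤ 2 * η ∧
      c + g (y.1, y.2 + c) = b y := by
    intro y hy
    have hs : ball y.2 (r / 2) ⊆ ball (0 : C2) r :=
      ball_subset_ball' (by linarith [mem_ball.1 hy.2])
    obtain ⟨c, hc, e⟩ := nearId_surj (w := y.2) (ρ := r / 2) (by linarith)
      ((slice hg hy.1).mono hs) (fun t ht => hg' (y.1, t) ⟨hy.1, hs ht⟩) (by linarith) hη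
      (b := y.2 + b y) (by simpa using hb' y hy)
    exact ⟨c, hc, add_left_cancel ((add_assoc _ _ _).symm.trans e)⟩
  choose! c hc using hex
  refine ⟨c, fun y₀ hy₀ => DifferentiableAt.differentiableWithinAt ?_, hc⟩
  have hU := hO.prod (isOpen_ball (x := (0 : C2)) (ε := r / 4))
  have hmem : ∀ (s t : C2), s ∈ ball (0 : C2) (r / 4) → ‖t‖ ≤ 2 * η →
      s + t ∈ ball (0 : C2) (r / 2) := fun s t hs ht => by
    rw [mem_ball_zero_iff] at hs ⊢
    linarith [norm_add_le s t]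
  have hsub : ball (0 : C2) (r / 2) ⊆ ball 0 r := ball_subset_ball (by linarith)
  have h0 := hmem _ _ hy₀.2 (hc y₀ hy₀).1
  have hg0 : DifferentiableAt ℂ g (y₀.1, y₀.2 + c y₀) :=
    hg.differentiableAt ((hO.prod isOpen_ball).mem_nhds ⟨hy₀.1, hsub h0⟩)
  refine implicit (G := fun q => b q.1 - g (q.1.1, q.1.2 + q.2)) ?_ ?_ ?_ ?_
  · refine DifferentiableAt.sub ((hb.differentiableAt (hU.mem_nhds hy₀)).comp _
      differentiableAt_fst) ?_
    exact DifferentiableAt.comp (f := fun q : (V × C2) × C2 => (q.1.1, q.1.2 + q.2)) _ hg0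
      (by fun_prop)
  · filter_upwards [hU.mem_nhds hy₀] with y hy
    exact eq_sub_of_add_eq (hc y hy).2
  · filter_upwards [hU.mem_nhds hy₀] with y hy
    have h1 := lip_of_bound (by linarith) (slice hg hy.1) (fun t ht => hg' (y.1, t) ⟨hy.1, ht⟩)
      (by linarith) (hmem _ _ hy.2 (hc y₀ hy₀).1) (hmem _ _ hy.2 (hc y hy).1)
    rw [add_sub_add_left_eq_sub, norm_sub_rev (c y₀)] at h1
    rwa [sub_sub_sub_cancel_left]
  · have h1 := fderiv_le_of_bound (by linarith) (slice hg hy₀.1)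
      (fun t ht => hg' (y₀.1, t) ⟨hy₀.1, ht⟩) (by linarith) h0
    change ‖fderiv ℂ (fun t => b y₀ - (fun t => g (y₀.1, t)) (y₀.2 + t)) (c y₀)‖ ≤ 1 / 4
    rw [fderiv_const_sub, norm_neg, fderiv_comp_add_left (f := fun t => g (y₀.1, t))]
    exact h1

variable {d h : ℝ}

theorem isOpen_box : IsOpen (Box d h) := by
  have : Box d h = ⋂ i, {x : C3 | -d < (x i).re ∧ (x i).re < 1 + d ∧ |(x i).im| < h} := by
    ext x
    simp [Box]
  rw [this]
  refine isOpen_iInter_of_finite fun i => IsOpen.and ?_ (IsOpen.and ?_ ?_)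
  all_goals exact isOpen_lt (by fun_prop) (by fun_prop)

theorem upd_mem {w : C3} (hw : w ∈ Box d h) (i : Fin 3) {z : ℂ} (hz : z ∈ Rect (-d) d h) :
    update w i z ∈ Box d h ∧ update w i z + ee i ∈ Box d h := by
  obtain ⟨h1, h2, h3⟩ := hz
  refine ⟨fun j => ?_, fun j => ?_⟩ <;> by_cases hj : j = i
  · subst hj
    simpa using ⟨h1, by linarith, h3⟩
  · simpa [hj] using hw j
  · subst hj
    simpa [ee] using ⟨by linarith, by linarith, h3⟩
  · simpa [hj, ee] using hw j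

theorem coord_mem {x : C3} (hx : x ∈ Box d h) {i : Fin 3} (hx' : x + ee i ∈ Box d h) :
    x i ∈ Rect (-d) d h := by
  have h1 : (x i).re + 1 < 1 + d := by simpa [ee] using (hx' i).2.1
  exact ⟨(hx i).1, by linarith, (hx i).2.2⟩

theorem upd_self (x : C3) (i : Fin 3) (z : ℂ) : update (x + ee i) i z = update x i z := by
  funext j
  by_cases hj : j = i
  · simp [hj]
  · simp [hj, ee]

theorem upd_ne (x : C3) {i j : Fin 3} (hj : j ≠ i) (z : ℂ) :
    update (x + ee j) i z = update x i z + ee j := by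
  funext k
  by_cases hk : k = i
  · simp [hk, ee, hj.symm]
  · simp [hk]

theorem LL_add (l : Fin 3 → C2) (x : C3) (i : Fin 3) : LL l (x + ee i) = LL l x + l i := by
  simp [LL, ee, add_smul, Finset.sum_add_distrib, Pi.single_apply]

theorem differentiable_LL (l : Fin 3 → C2) : Differentiable ℂ (LL l) := by
  unfold LL
  fun_prop

theorem exists_safe (l : Fin 3 → C2) {C : Set C2} (hC : IsOpen C) (hl : Cell l ⊆ C) {ρ : ℝ}
    (hρ : 0 < ρ) : ∃ d R : ℝ, 0 < d ∧ d < 1 / 2 ∧ 0 < R ∧ 2 * R ≤ ρ ∧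
      ∀ x ∈ Box d d, ∀ t : C2, ‖t‖ < R → LL l x + t ∈ C := by
  let φ : (Fin 3 → ℝ) → C3 × C2 := fun t => (fun i => (t i : ℂ), 0)
  have hK : IsCompact (φ '' Icc 0 1) := isCompact_Icc.image (by fun_prop)
  have hc : Continuous fun q : C3 × C2 => LL l q.1 + q.2 :=
    ((differentiable_LL l).continuous.comp continuous_fst).add continuous_snd
  obtain ⟨δ, hδ, hsub⟩ := hK.exists_thickening_subset_open (hc.isOpen_preimage C hC) (by
    rintro _ ⟨t, ht, rfl⟩
    exact hl ⟨t, fun i => ⟨ht.1 i, ht.2 i⟩, add_zero _⟩)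
  refine ⟨min (δ / 2) (1 / 4), min δ (ρ / 2), by positivity, (min_le_right _ _).trans_lt
    (by norm_num), by positivity, by linarith [min_le_right δ (ρ / 2)], fun x hx t ht => ?_⟩
  refine hsub (a := (x, t)) (mem_thickening_iff.2 ⟨φ fun i => max 0 (min 1 (x i).re),
    mem_image_of_mem φ (mem_Icc.2 ⟨fun i => ?_, fun i => ?_⟩), ?_⟩)
  · exact le_max_left _ _
  · exact max_le zero_le_one (min_le_left _ _)
  · rw [Prod.dist_eq, max_lt_iff, dist_pi_lt_iff hδ, dist_zero_right]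
    refine ⟨fun i => ?_, ht.trans_le (min_le_left _ _)⟩
    obtain ⟨h1, h2, h3⟩ := hx i
    have h4 := min_le_left (δ / 2) (1 / 4)
    have h5 : |(x i).re - max 0 (min 1 (x i).re)| < δ / 2 := by
      rw [abs_lt]
      rcases le_total 1 (x i).re with h | h
      · rw [min_eq_left h, max_eq_right zero_le_one]
        constructor <;> linarith
      · rw [min_eq_right h]
        rcases le_total 0 (x i).re with h' | h'
        · rw [max_eq_right h']
          constructor <;> linarith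
        · rw [max_eq_left h']
          constructor <;> linarith
    rw [dist_eq_norm]
    refine (Complex.norm_le_abs_re_add_abs_im _).trans_lt ?_
    simp only [φ, Complex.sub_re, Complex.sub_im, Complex.ofReal_re, Complex.ofReal_im, sub_zero]
    linarith

end Vale.Agent.P290Z.Pr3
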